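import Vale.Agent.Lib.P036.MonoChain

namespace Vale.Agent.Results.P036.MonotoneChains

/-- Heilbronn-type bound for point sets covered by `k` monotone chains: if a set `P` of `n > 2 k`
points of the unit square is covered by `k` sets, each totally ordered by the coordinatewise order
(both coordinates nondecreasing) or by the order `x` nondecreasing, `y` nonincreasing, then three
distinct points of `P` span a triangle of area at most `2 k ^ 2 / (n - 2 k) ^ 2`. -/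
theorem result :
    ∀ (k : ℕ) (C : Fin k → Set (ℝ × ℝ)) (P : Finset (ℝ × ℝ)),
      (∀ p ∈ P, 0 ≤ p.1 ∧ p.1 ≤ 1 ∧ 0 ≤ p.2 ∧ p.2 ≤ 1) →
      (∀ i, IsChain (fun p q : ℝ × ℝ => p.1 ≤ q.1 ∧ p.2 ≤ q.2) (C i) ∨
        IsChain (fun p q : ℝ × ℝ => p.1 ≤ q.1 ∧ q.2 ≤ p.2) (C i)) →
      (P : Set (ℝ × ℝ)) ⊆ ⋃ i, C i →
      2 * k < P.card →
      ∃ p ∈ P, ∃ q ∈ P, ∃ r ∈ P, p ≠ q ∧ q ≠ r ∧ p ≠ r ∧
        |(q.1 - p.1) * (r.2 - p.2) - (r.1 - p.1) * (q.2 - p.2)| / 2
          ≤ 2 * (k : ℝ) ^ 2 / ((P.card : ℝ) - 2 * k) ^ 2 := by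
  intro k C P hP hC hcov hn
  refine Vale.Agent.Lib.P036.mono_cover_small_triangle k C P hP (fun i => ?_) hcov hn
  rcases hC i with h | h
  · left
    intro p hp q hq hne
    rcases h hp hq hne with h' | h'
    · exact Or.inl (Prod.mk_le_mk.mpr h')
    · exact Or.inr (Prod.mk_le_mk.mpr h')
  · exact Or.inr h

end Vale.Agent.Results.P036.MonotoneChains
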